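import Vale.Agent.P087.H894.Main

namespace Vale.Agent.Results.P087.AutomorphismGap

open Vale.Agent.P087.FD

/-- (1) There is a finite self-adjoint tuple `X` in a tracial von Neumann algebra with
`-∞ < χ(X) < χ^*(X)`.
(2) For every `n ≥ 10 ^ 50` there is such an `n`-tuple, with `χ^*(X) ≥ χ(X) + 10⁻²⁵ n`, which is
the image of a scaled free semicircular family `(c_i s_i)` under a triangular cubic automorphism
and satisfies the Schwinger-Dyson equations of a polynomial potential; moreover
`χ(X) = χ(c s) = χ^*(c s)`, and `limsup` can be replaced by `liminf` in the definition of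
`χ(X)`. -/
theorem result :
    (∃ (H : Type) (_ : NormedAddCommGroup H) (_ : InnerProductSpace ℂ H) (_ : CompleteSpace H),
      Gap H) ∧
    ∀ n : ℕ, 10 ^ 50 ≤ n →
      ∃ (H : Type) (_ : NormedAddCommGroup H) (_ : InnerProductSpace ℂ H) (_ : CompleteSpace H),
        StrongGap H n :=
  ⟨final, Vale.Agent.P087.H894.main⟩

end Vale.Agent.Results.P087.AutomorphismGap
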