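import Vale.Agent.P087.H847.Main

/-!
# P087: `χ(X) < χ^*(X)` for generators of the free group factors `L(F_n)`, all `n ≥ n₀`
-/

namespace Vale.Agent.Results.P087.FreeGroupFactorGap

open Vale.Agent.P087.FD Vale.Agent.P087.H847

/-- (1) There is a finite self-adjoint tuple `X` in a tracial von Neumann algebra with
`-∞ < χ(X) < χ^*(X)`. (2) For every `n ≥ (8 · 10²⁴ + 2)²` there are a free semicircular `n`-tuple
`T` and a self-adjoint `n`-tuple `X`, obtained from `T` by a scaling and one cubic shear and
generating the same algebra as `T` (so that `X` generates the free group factor `L(F_n)`), with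
`-∞ < χ(X)` and `χ(X) + √n < χ^*(X)`. -/
theorem result :
    (∃ (H : Type) (_ : NormedAddCommGroup H) (_ : InnerProductSpace ℂ H) (_ : CompleteSpace H),
      Gap H) ∧
    ∀ n : ℕ, (8 * 10 ^ 24 + 2) ^ 2 ≤ n →
      ∃ (H : Type) (_ : NormedAddCommGroup H) (_ : InnerProductSpace ℂ H) (_ : CompleteSpace H),
        FreeGroupGap H n :=
  ⟨final, fun n hn => main n hn⟩

end Vale.Agent.Results.P087.FreeGroupFactorGap
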